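import Mathlib

/-!
# P243, general convex bodies: the nearest-point map of a closed convex set

For a nonempty closed convex set `K` of a Hilbert space there is a map `P` with values in `K`,
satisfying the obtuse-angle inequality, fixing `K` pointwise and `1`-Lipschitz.
-/

open Set

namespace Vale.Agent.H22.GenK

variable {E : Type*} [NormedAddCommGroup E] [InnerProductSpace ℝ E] [CompleteSpace E]

theorem exists_nearest_point_map {K : Set E} (hK : Convex ℝ K) (hcl : IsClosed K)
    (hne : K.Nonempty) :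
    ∃ P : E → E, (∀ x, P x ∈ K) ∧ (∀ x, ∀ y ∈ K, inner ℝ (x - P x) (y - P x) ≤ 0) ∧
      (∀ x ∈ K, P x = x) ∧ (∀ x x', ‖P x - P x'‖ ≤ ‖x - x'‖) ∧
      (∀ x, ∀ y ∈ K, ‖x - P x‖ ≤ ‖x - y‖) := by
  classical
  have hex : ∀ x : E, ∃ v ∈ K, ‖x - v‖ = ⨅ w : K, ‖x - w‖ :=
    fun x => exists_norm_eq_iInf_of_complete_convex hne hcl.isComplete hK x
  choose P hPK hPmin using hex
  have hobt : ∀ x, ∀ y ∈ K, inner ℝ (x - P x) (y - P x) ≤ 0 := fun x =>
    (norm_eq_iInf_iff_real_inner_le_zero hK (hPK x)).mp (hPmin x)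
  have hlip : ∀ x x', ‖P x - P x'‖ ≤ ‖x - x'‖ := by
    intro x x'
    have h1 := hobt x (P x') (hPK x')
    have h2 := hobt x' (P x) (hPK x)
    have hsq : ‖P x - P x'‖ ^ 2 ≤ inner ℝ (x - x') (P x - P x') := by
      have e1 : inner ℝ (x - P x) (P x' - P x) =
          inner ℝ x (P x') - inner ℝ x (P x) - inner ℝ (P x) (P x') + inner ℝ (P x) (P x) := by
        simp only [inner_sub_left, inner_sub_right]; ring
      have e2 : inner ℝ (x' - P x') (P x - P x') =
          inner ℝ x' (P x) - inner ℝ x' (P x') - inner ℝ (P x') (P x) + inner ℝ (P x') (P x') := by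
        simp only [inner_sub_left, inner_sub_right]; ring
      have e3 : ‖P x - P x'‖ ^ 2 =
          inner ℝ (P x) (P x) - 2 * inner ℝ (P x) (P x') + inner ℝ (P x') (P x') := by
        rw [← real_inner_self_eq_norm_sq]
        simp only [inner_sub_left, inner_sub_right]
        rw [real_inner_comm (P x) (P x')]; ring
      have e4 : inner ℝ (x - x') (P x - P x') =
          inner ℝ x (P x) - inner ℝ x (P x') - inner ℝ x' (P x) + inner ℝ x' (P x') := by
        simp only [inner_sub_left, inner_sub_right]; ring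
      have e5 : inner ℝ (P x') (P x) = inner ℝ (P x) (P x') := real_inner_comm _ _
      rw [e1] at h1
      rw [e2, e5] at h2
      rw [e3, e4]
      linarith
    have hcs : inner ℝ (x - x') (P x - P x') ≤ ‖x - x'‖ * ‖P x - P x'‖ := real_inner_le_norm _ _
    by_cases h0 : ‖P x - P x'‖ = 0
    · rw [h0]; exact norm_nonneg _
    · have hpos : 0 < ‖P x - P x'‖ := lt_of_le_of_ne (norm_nonneg _) (Ne.symm h0)
      have : ‖P x - P x'‖ * ‖P x - P x'‖ ≤ ‖x - x'‖ * ‖P x - P x'‖ := by
        calc ‖P x - P x'‖ * ‖P x - P x'‖ = ‖P x - P x'‖ ^ 2 := by ring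
          _ ≤ inner ℝ (x - x') (P x - P x') := hsq
          _ ≤ ‖x - x'‖ * ‖P x - P x'‖ := hcs
      exact le_of_mul_le_mul_right this hpos
  have hdist : ∀ x, ∀ y ∈ K, ‖x - P x‖ ≤ ‖x - y‖ := by
    intro x y hy
    rw [hPmin x]
    exact ciInf_le ⟨0, by rintro _ ⟨w, rfl⟩; exact norm_nonneg _⟩ (⟨y, hy⟩ : K)
  refine ⟨P, hPK, hobt, ?_, hlip, hdist⟩
  intro x hx
  have h := hdist x x hx
  rw [sub_self, norm_zero] at h
  have : ‖x - P x‖ = 0 := le_antisymm h (norm_nonneg _)
  rw [norm_eq_zero, sub_eq_zero] at this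
  exact this.symm

end Vale.Agent.H22.GenK
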