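import Mathlib

/-!
# P243, general convex bodies: volume of a parallelepiped (LEMMA P, step 1, box version)

For unit vectors `ξ₁, ξ₂, μ` of `EuclideanSpace ℝ (Fin 3)` with `μ` orthogonal to `ξ₁, ξ₂` and
`s ^ 2 ≤ 1 - ⟪ξ₁, ξ₂⟫ ^ 2`, the parallelepiped
`{e + a ξ₁ + b ξ₂ + γ μ : 0 ≤ a ≤ A, 0 ≤ b ≤ B, |γ| ≤ G}` has volume at least `s A B (2 G)`.
-/

open MeasureTheory Set

namespace Vale.Agent.H22.GenK

/-- The matrix whose columns are the three vectors `v 0, v 1, v 2`. -/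
def colMat (v : Fin 3 → EuclideanSpace ℝ (Fin 3)) : Matrix (Fin 3) (Fin 3) ℝ :=
  Matrix.of fun i j => v j i

theorem colMat_transpose_mul (v : Fin 3 → EuclideanSpace ℝ (Fin 3)) :
    (colMat v).transpose * colMat v = Matrix.of fun i j => inner ℝ (v i) (v j) := by
  ext i j
  simp only [Matrix.mul_apply, Matrix.transpose_apply, colMat, Matrix.of_apply]
  rw [EuclideanSpace.inner_eq_star_dotProduct]
  simp [dotProduct, Fin.sum_univ_three, mul_comm]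

theorem colMat_det_sq (v : Fin 3 → EuclideanSpace ℝ (Fin 3)) :
    (colMat v).det ^ 2 = (Matrix.of fun i j => inner ℝ (v i) (v j) : Matrix (Fin 3) (Fin 3) ℝ).det := by
  rw [← colMat_transpose_mul, Matrix.det_mul, Matrix.det_transpose]
  ring

theorem colMat_det_abs_ge (ξ₁ ξ₂ μ : EuclideanSpace ℝ (Fin 3)) (h1 : ‖ξ₁‖ = 1) (h2 : ‖ξ₂‖ = 1)
    (h3 : ‖μ‖ = 1) (h13 : inner ℝ ξ₁ μ = 0) (h23 : inner ℝ ξ₂ μ = 0) {s : ℝ}
    (hg : s ^ 2 ≤ 1 - (inner ℝ ξ₁ ξ₂) ^ 2) :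
    s ≤ |(colMat ![ξ₁, ξ₂, μ]).det| := by
  have hsq := colMat_det_sq ![ξ₁, ξ₂, μ]
  have h11 : inner ℝ ξ₁ ξ₁ = 1 := by rw [real_inner_self_eq_norm_sq, h1]; norm_num
  have h22 : inner ℝ ξ₂ ξ₂ = 1 := by rw [real_inner_self_eq_norm_sq, h2]; norm_num
  have h33 : inner ℝ μ μ = 1 := by rw [real_inner_self_eq_norm_sq, h3]; norm_num
  have h31 : inner ℝ μ ξ₁ = 0 := by rw [real_inner_comm]; exact h13
  have h32 : inner ℝ μ ξ₂ = 0 := by rw [real_inner_comm]; exact h23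
  have h21 : inner ℝ ξ₂ ξ₁ = inner ℝ ξ₁ ξ₂ := real_inner_comm _ _
  have hdet : (Matrix.of fun i j => inner ℝ ((![ξ₁, ξ₂, μ] : Fin 3 → EuclideanSpace ℝ (Fin 3)) i)
      ((![ξ₁, ξ₂, μ] : Fin 3 → EuclideanSpace ℝ (Fin 3)) j) : Matrix (Fin 3) (Fin 3) ℝ).det =
      1 - (inner ℝ ξ₁ ξ₂) ^ 2 := by
    rw [Matrix.det_fin_three]
    simp only [Matrix.of_apply, Matrix.cons_val_zero, Matrix.cons_val_one, Matrix.cons_val_two,
      Matrix.head_cons, Matrix.tail_cons]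
    rw [h11, h22, h33, h13, h23, h31, h32, h21]
    ring
  rw [hdet] at hsq
  have : s ^ 2 ≤ |(colMat ![ξ₁, ξ₂, μ]).det| ^ 2 := by rw [sq_abs, hsq]; exact hg
  exact le_of_pow_le_pow_left₀ two_ne_zero (abs_nonneg _) this

/-- The linear map with matrix `colMat v`: it sends `x` to `x 0 • v 0 + x 1 • v 1 + x 2 • v 2`. -/
theorem toLpLin_colMat_apply (v : Fin 3 → EuclideanSpace ℝ (Fin 3)) (x : EuclideanSpace ℝ (Fin 3)) :
    Matrix.toLpLin 2 2 (colMat v) x = x 0 • v 0 + x 1 • v 1 + x 2 • v 2 := by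
  ext i
  simp [Matrix.toLpLin_apply, Matrix.mulVec, dotProduct, Fin.sum_univ_three, colMat, mul_comm]

theorem det_toLpLin_colMat (v : Fin 3 → EuclideanSpace ℝ (Fin 3)) :
    LinearMap.det (Matrix.toLpLin 2 2 (colMat v) :
      EuclideanSpace ℝ (Fin 3) →ₗ[ℝ] EuclideanSpace ℝ (Fin 3)) = (colMat v).det := by
  rw [Matrix.toLpLin_eq_toLin, LinearMap.det_toLin]

/-- Volume of a coordinate box of `EuclideanSpace ℝ (Fin 3)`. -/
theorem volume_coord_box (lo hi : Fin 3 → ℝ) :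
    volume {x : EuclideanSpace ℝ (Fin 3) | ∀ i, lo i ≤ x i ∧ x i ≤ hi i} =
      ∏ i, ENNReal.ofReal (hi i - lo i) := by
  have hmp := PiLp.volume_preserving_ofLp (Fin 3)
  have hset : {x : EuclideanSpace ℝ (Fin 3) | ∀ i, lo i ≤ x i ∧ x i ≤ hi i} =
      (WithLp.ofLp : EuclideanSpace ℝ (Fin 3) → (Fin 3 → ℝ)) ⁻¹' (Icc lo hi) := by
    ext x
    simp only [Set.mem_ofPred_eq, mem_preimage, mem_Icc, Pi.le_def]
    constructor
    · intro h; exact ⟨fun i => (h i).1, fun i => (h i).2⟩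
    · intro h i; exact ⟨h.1 i, h.2 i⟩
  rw [hset, hmp.measure_preimage measurableSet_Icc.nullMeasurableSet, Real.volume_Icc_pi]

/-- **Volume of the parallelepiped.** -/
theorem volume_parallelepiped_ge (ξ₁ ξ₂ μ : EuclideanSpace ℝ (Fin 3)) (h1 : ‖ξ₁‖ = 1)
    (h2 : ‖ξ₂‖ = 1) (h3 : ‖μ‖ = 1) (h13 : inner ℝ ξ₁ μ = 0) (h23 : inner ℝ ξ₂ μ = 0) {s : ℝ}
    (hs : 0 ≤ s) (hg : s ^ 2 ≤ 1 - (inner ℝ ξ₁ ξ₂) ^ 2) (e : EuclideanSpace ℝ (Fin 3))
    {A B G : ℝ} (hA : 0 ≤ A) (hB : 0 ≤ B) :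
    ENNReal.ofReal (s * (A * B * (2 * G))) ≤
      volume {y : EuclideanSpace ℝ (Fin 3) | ∃ a b γ : ℝ, 0 ≤ a ∧ a ≤ A ∧ 0 ≤ b ∧ b ≤ B ∧
        |γ| ≤ G ∧ y = e + a • ξ₁ + b • ξ₂ + γ • μ} := by
  set v : Fin 3 → EuclideanSpace ℝ (Fin 3) := ![ξ₁, ξ₂, μ] with hv
  set f : EuclideanSpace ℝ (Fin 3) →ₗ[ℝ] EuclideanSpace ℝ (Fin 3) :=
    Matrix.toLpLin 2 2 (colMat v) with hf
  set lo : Fin 3 → ℝ := ![0, 0, -G] with hlo
  set hi : Fin 3 → ℝ := ![A, B, G] with hhi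
  set Box : Set (EuclideanSpace ℝ (Fin 3)) := {x | ∀ i, lo i ≤ x i ∧ x i ≤ hi i} with hBox
  -- the parallelepiped contains the translate of the image of the box
  have hsub : (fun y => e + y) '' (f '' Box) ⊆
      {y : EuclideanSpace ℝ (Fin 3) | ∃ a b γ : ℝ, 0 ≤ a ∧ a ≤ A ∧ 0 ≤ b ∧ b ≤ B ∧
        |γ| ≤ G ∧ y = e + a • ξ₁ + b • ξ₂ + γ • μ} := by
    rintro _ ⟨_, ⟨x, hx, rfl⟩, rfl⟩
    have hx0 := hx 0
    have hx1 := hx 1
    have hx2 := hx 2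
    simp only [hlo, hhi, Matrix.cons_val_zero, Matrix.cons_val_one] at hx0 hx1
    have hx2' : -G ≤ x 2 ∧ x 2 ≤ G := by simpa [hlo, hhi] using hx2
    refine ⟨x 0, x 1, x 2, hx0.1, hx0.2, hx1.1, hx1.2, abs_le.mpr hx2', ?_⟩
    show e + f x = _
    rw [hf, toLpLin_colMat_apply]
    simp [hv, add_assoc]
  have hvolBox : volume Box = ENNReal.ofReal (A * B * (2 * G)) := by
    rw [hBox, volume_coord_box, Fin.prod_univ_three]
    simp only [hlo, hhi, Matrix.cons_val_zero, Matrix.cons_val_one, Matrix.cons_val_two,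
      Matrix.head_cons, Matrix.tail_cons, sub_zero]
    rw [← ENNReal.ofReal_mul hA, ← ENNReal.ofReal_mul (mul_nonneg hA hB)]
    congr 1
    ring
  have hvolimg : volume ((fun y => e + y) '' (f '' Box)) =
      ENNReal.ofReal |(colMat v).det| * volume Box := by
    rw [image_add_left, measure_preimage_add, Measure.addHaar_image_linearMap, hf,
      det_toLpLin_colMat]
  have hdet : s ≤ |(colMat v).det| := colMat_det_abs_ge ξ₁ ξ₂ μ h1 h2 h3 h13 h23 hg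
  calc ENNReal.ofReal (s * (A * B * (2 * G)))
      = ENNReal.ofReal s * ENNReal.ofReal (A * B * (2 * G)) := ENNReal.ofReal_mul hs
    _ ≤ ENNReal.ofReal |(colMat v).det| * volume Box := by
        rw [hvolBox]
        exact mul_le_mul' (ENNReal.ofReal_le_ofReal hdet) le_rfl
    _ = volume ((fun y => e + y) '' (f '' Box)) := hvolimg.symm
    _ ≤ _ := measure_mono hsub

end Vale.Agent.H22.GenK
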