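import Vale.Agent.H22.GenK.Nearest

/-!
# P243, general convex bodies: the sectors at sharp points (LEMMA P, step 3)

If `e ∈ K` lies in two caps of height `η` of `K` with normals `ξ₁, ξ₂`
(`⟪ξᵢ, y - e⟫ ≤ η` on `K`), then the nearest-point map `P` of `K` sends every point
`e + a ξ₁ + b ξ₂ + g` with `a, b ≥ 0`, `a + b ≤ ρ`, `‖g‖ ≤ d₀`, `2 ρ η ≤ d₀ ^ 2`, into the ball
of radius `2 d₀` about `e`.  Hence the sectors of two such points at distance `> 4 d₀` are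
disjoint.
-/

open Set

namespace Vale.Agent.H22.GenK

variable {E : Type*} [NormedAddCommGroup E] [InnerProductSpace ℝ E]

/-- The nearest point of `e + a ξ₁ + b ξ₂` is within `sqrt (2 (a + b) η)` of `e`. -/
theorem sector_nearest_sq {K : Set E} {P : E → E} (hPK : ∀ x, P x ∈ K)
    (hPd : ∀ x, ∀ y ∈ K, ‖x - P x‖ ≤ ‖x - y‖)
    {e ξ₁ ξ₂ : E} {η a b : ℝ} (he : e ∈ K)
    (h1 : ∀ y ∈ K, inner ℝ ξ₁ (y - e) ≤ η) (h2 : ∀ y ∈ K, inner ℝ ξ₂ (y - e) ≤ η)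
    (ha : 0 ≤ a) (hb : 0 ≤ b) :
    ‖P (e + a • ξ₁ + b • ξ₂) - e‖ ^ 2 ≤ 2 * (a + b) * η := by
  set v : E := a • ξ₁ + b • ξ₂ with hv
  have hx : e + a • ξ₁ + b • ξ₂ = e + v := by rw [hv, add_assoc]
  rw [hx]
  set y : E := P (e + v) with hy
  have hyK : y ∈ K := hPK _
  have hd : ‖e + v - y‖ ≤ ‖v‖ := by
    have := hPd (e + v) e he
    rwa [add_sub_cancel_left] at this
  have hsq : ‖e + v - y‖ ^ 2 ≤ ‖v‖ ^ 2 := by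
    have h0 : 0 ≤ ‖e + v - y‖ := norm_nonneg _
    nlinarith
  -- expand `‖(e + v - y) - v‖ ^ 2`
  have e1 : y - e = v - (e + v - y) := by abel
  have e2 : ‖y - e‖ ^ 2 = ‖v‖ ^ 2 - 2 * inner ℝ v (e + v - y) + ‖e + v - y‖ ^ 2 := by
    rw [e1, norm_sub_sq_real]
  have e3 : inner ℝ v (e + v - y) = ‖v‖ ^ 2 - inner ℝ v (y - e) := by
    have : e + v - y = v - (y - e) := by abel
    rw [this, inner_sub_right, real_inner_self_eq_norm_sq]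
  have e4 : inner ℝ v (y - e) = a * inner ℝ ξ₁ (y - e) + b * inner ℝ ξ₂ (y - e) := by
    rw [hv, inner_add_left, real_inner_smul_left, real_inner_smul_left]
  have b1 : a * inner ℝ ξ₁ (y - e) ≤ a * η := mul_le_mul_of_nonneg_left (h1 y hyK) ha
  have b2 : b * inner ℝ ξ₂ (y - e) ≤ b * η := mul_le_mul_of_nonneg_left (h2 y hyK) hb
  rw [e2, e3, e4]
  nlinarith

/-- Points of the sector at `e` are sent by the nearest-point map into the ball of radius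
`2 d₀` about `e`. -/
theorem sector_nearest_le {K : Set E} {P : E → E} (hPK : ∀ x, P x ∈ K)
    (hPd : ∀ x, ∀ y ∈ K, ‖x - P x‖ ≤ ‖x - y‖) (hPl : ∀ x x', ‖P x - P x'‖ ≤ ‖x - x'‖)
    {e ξ₁ ξ₂ g : E} {η a b ρ d₀ : ℝ} (he : e ∈ K)
    (h1 : ∀ y ∈ K, inner ℝ ξ₁ (y - e) ≤ η) (h2 : ∀ y ∈ K, inner ℝ ξ₂ (y - e) ≤ η)
    (ha : 0 ≤ a) (hb : 0 ≤ b) (hab : a + b ≤ ρ) (hη : 0 ≤ η) (hd₀ : 0 ≤ d₀)
    (hρη : 2 * ρ * η ≤ d₀ ^ 2) (hg : ‖g‖ ≤ d₀) :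
    ‖P (e + a • ξ₁ + b • ξ₂ + g) - e‖ ≤ 2 * d₀ := by
  have hsq := sector_nearest_sq hPK hPd he h1 h2 ha hb
  have hle : ‖P (e + a • ξ₁ + b • ξ₂) - e‖ ≤ d₀ := by
    have h3 : ‖P (e + a • ξ₁ + b • ξ₂) - e‖ ^ 2 ≤ d₀ ^ 2 := by
      have : 2 * (a + b) * η ≤ 2 * ρ * η := by nlinarith
      linarith
    exact le_of_pow_le_pow_left₀ two_ne_zero hd₀ h3
  have hl := hPl (e + a • ξ₁ + b • ξ₂ + g) (e + a • ξ₁ + b • ξ₂)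
  rw [add_sub_cancel_left] at hl
  calc ‖P (e + a • ξ₁ + b • ξ₂ + g) - e‖
      = ‖(P (e + a • ξ₁ + b • ξ₂ + g) - P (e + a • ξ₁ + b • ξ₂)) +
          (P (e + a • ξ₁ + b • ξ₂) - e)‖ := by congr 1; abel
    _ ≤ ‖P (e + a • ξ₁ + b • ξ₂ + g) - P (e + a • ξ₁ + b • ξ₂)‖ +
          ‖P (e + a • ξ₁ + b • ξ₂) - e‖ := norm_add_le _ _
    _ ≤ d₀ + d₀ := add_le_add (hl.trans hg) hle
    _ = 2 * d₀ := by ring

/-- Two sectors at sharp points that are more than `4 d₀` apart are disjoint. -/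
theorem sector_disjoint {K : Set E} {P : E → E} (hPK : ∀ x, P x ∈ K)
    (hPd : ∀ x, ∀ y ∈ K, ‖x - P x‖ ≤ ‖x - y‖) (hPl : ∀ x x', ‖P x - P x'‖ ≤ ‖x - x'‖)
    {e ξ₁ ξ₂ g e' ξ₁' ξ₂' g' : E} {η a b a' b' ρ d₀ : ℝ} (he : e ∈ K) (he' : e' ∈ K)
    (h1 : ∀ y ∈ K, inner ℝ ξ₁ (y - e) ≤ η) (h2 : ∀ y ∈ K, inner ℝ ξ₂ (y - e) ≤ η)
    (h1' : ∀ y ∈ K, inner ℝ ξ₁' (y - e') ≤ η) (h2' : ∀ y ∈ K, inner ℝ ξ₂' (y - e') ≤ η)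
    (ha : 0 ≤ a) (hb : 0 ≤ b) (hab : a + b ≤ ρ)
    (ha' : 0 ≤ a') (hb' : 0 ≤ b') (hab' : a' + b' ≤ ρ) (hη : 0 ≤ η) (hd₀ : 0 ≤ d₀)
    (hρη : 2 * ρ * η ≤ d₀ ^ 2) (hg : ‖g‖ ≤ d₀) (hg' : ‖g'‖ ≤ d₀)
    (heq : e + a • ξ₁ + b • ξ₂ + g = e' + a' • ξ₁' + b' • ξ₂' + g') :
    ‖e - e'‖ ≤ 4 * d₀ := by
  have hA := sector_nearest_le hPK hPd hPl he h1 h2 ha hb hab hη hd₀ hρη hg
  have hB := sector_nearest_le hPK hPd hPl he' h1' h2' ha' hb' hab' hη hd₀ hρη hg'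
  rw [← heq] at hB
  calc ‖e - e'‖ = ‖(P (e + a • ξ₁ + b • ξ₂ + g) - e') - (P (e + a • ξ₁ + b • ξ₂ + g) - e)‖ := by
        congr 1; abel
    _ ≤ ‖P (e + a • ξ₁ + b • ξ₂ + g) - e'‖ + ‖P (e + a • ξ₁ + b • ξ₂ + g) - e‖ := norm_sub_le _ _
    _ ≤ 2 * d₀ + 2 * d₀ := add_le_add hB hA
    _ = 4 * d₀ := by ring

end Vale.Agent.H22.GenK
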