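import Mathlib

/-!
# P243, general convex bodies: a line missing the interior lies in a supporting plane

Geometric Hahn-Banach for a convex set with nonempty interior and a line that misses the
interior, in an inner product space: there is a unit normal `ξ` orthogonal to the direction of
the line such that the whole set lies in the half-space `⟪ξ, y - p⟫ ≤ 0`.
-/

open Set

namespace Vale.Agent.H22.GenK

variable {E : Type*} [NormedAddCommGroup E] [InnerProductSpace ℝ E] [CompleteSpace E]

theorem exists_unit_support_of_line_disjoint {K : Set E} (hK : Convex ℝ K)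
    (hint : (interior K).Nonempty) (p v : E)
    (hdisj : ∀ t : ℝ, p + t • v ∉ interior K) :
    ∃ ξ : E, ‖ξ‖ = 1 ∧ inner ℝ ξ v = 0 ∧ ∀ y ∈ K, inner ℝ ξ (y - p) ≤ 0 := by
  classical
  -- separate the open convex set `interior K` from the line
  have hline : Convex ℝ (Set.range fun t : ℝ => p + t • v) := by
    rintro _ ⟨s, rfl⟩ _ ⟨t, rfl⟩ a b ha hb hab
    refine ⟨a * s + b * t, ?_⟩
    have h1 : a • p + b • p = p := by rw [← add_smul, hab, one_smul]
    show p + (a * s + b * t) • v = a • (p + s • v) + b • (p + t • v)
    calc p + (a * s + b * t) • v = (a • p + b • p) + (a * s + b * t) • v := by rw [h1]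
      _ = a • (p + s • v) + b • (p + t • v) := by
        simp only [smul_add, smul_smul, add_smul]
        abel
  have hd : Disjoint (interior K) (Set.range fun t : ℝ => p + t • v) := by
    rw [Set.disjoint_left]
    rintro x hx ⟨t, rfl⟩
    exact hdisj t hx
  obtain ⟨f, s, hf1, hf2⟩ :=
    geometric_hahn_banach_open hK.interior isOpen_interior hline hd
  -- `f v = 0`
  have hfv : f v = 0 := by
    by_contra hne
    have hb : ∀ t : ℝ, s ≤ f p + t * f v := by
      intro t
      have := hf2 (p + t • v) ⟨t, rfl⟩
      simpa [map_add, map_smul] using this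
    have := hb ((s - f p - 1) / f v)
    rw [div_mul_cancel₀ _ hne] at this
    linarith
  have hfp : s ≤ f p := by
    have := hf2 (p + (0 : ℝ) • v) ⟨0, rfl⟩
    simpa using this
  obtain ⟨x0, hx0⟩ := hint
  have hfx0 : f x0 < f p := lt_of_lt_of_le (hf1 x0 hx0) hfp
  -- Riesz representation
  set ξ0 : E := (InnerProductSpace.toDual ℝ E).symm f with hξ0
  have hrep : ∀ y : E, inner ℝ ξ0 y = f y := by
    intro y
    rw [hξ0, InnerProductSpace.toDual_symm_apply]
  have hξ0ne : ξ0 ≠ 0 := by
    intro h0
    have h1 := hrep x0
    have h2 := hrep p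
    rw [h0, inner_zero_left] at h1 h2
    linarith
  have hnpos : 0 < ‖ξ0‖ := norm_pos_iff.mpr hξ0ne
  refine ⟨(‖ξ0‖)⁻¹ • ξ0, ?_, ?_, ?_⟩
  · rw [norm_smul, norm_inv, norm_norm, inv_mul_cancel₀ hnpos.ne']
  · rw [real_inner_smul_left, hrep, hfv, mul_zero]
  · intro y hy
    -- `f y ≤ f p` by density of the interior
    have hcl : y ∈ closure (interior K) := by
      rw [hK.closure_interior_eq_closure_of_nonempty_interior ⟨x0, hx0⟩]
      exact subset_closure hy
    have hle : f y ≤ f p := by
      have hclosed : IsClosed {z : E | f z ≤ f p} := isClosed_le f.continuous continuous_const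
      have hsub : interior K ⊆ {z : E | f z ≤ f p} := fun z hz =>
        le_of_lt (lt_of_lt_of_le (hf1 z hz) hfp)
      exact (closure_minimal hsub hclosed) hcl
    rw [real_inner_smul_left, inner_sub_right, hrep, hrep]
    exact mul_nonpos_of_nonneg_of_nonpos (inv_nonneg.mpr hnpos.le) (by linarith)

end Vale.Agent.H22.GenK
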